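import Vale.Agent.PNT.Main
import Vale.Agent.P042.R2.H757.Spec

/-!
P042: Row RES (primes in residue classes), from the prime number theorem in arithmetic
progressions of the team (`Vale.Agent.PNT.residueClass_sum_div_tendsto`).
-/

set_option autoImplicit false

namespace Vale.Agent.P042.H808

open Finset Filter Topology ArithmeticFunction ArithmeticFunction.vonMangoldt
open Vale.Agent.P042.H757

/-- the primes up to `x` in the class of `v` -/
noncomputable def PC (q v x : ℕ) : Finset ℕ := (Icc 1 x).filter (fun p => p.Prime ∧ p % q = v)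

theorem rc_le (q v : ℕ) (hv : v < q) (k : ℕ) :
    residueClass ((v : ℕ) : ZMod q) k ≤
      (if k.Prime ∧ k % q = v then Real.log k else 0)
        + (ArithmeticFunction.vonMangoldt k - if k.Prime then Real.log k else 0) := by
  have h0 : 0 ≤ ArithmeticFunction.vonMangoldt k := ArithmeticFunction.vonMangoldt_nonneg
  have hd : ((k : ℕ) : ZMod q) = ((v : ℕ) : ZMod q) ↔ k % q = v := by
    rw [ZMod.natCast_eq_natCast_iff', Nat.mod_eq_of_lt hv]
  have hr : residueClass ((v : ℕ) : ZMod q) k =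
      if k % q = v then ArithmeticFunction.vonMangoldt k else 0 := by
    simp only [residueClass, Set.indicator, Set.mem_ofPred_eq, hd]
  rw [hr]
  by_cases hp : k.Prime
  · have hL : ArithmeticFunction.vonMangoldt k = Real.log k :=
      ArithmeticFunction.vonMangoldt_apply_prime hp
    by_cases h : k % q = v
    · rw [if_pos h, if_pos ⟨hp, h⟩, if_pos hp, hL]
      linarith
    · rw [if_neg h, if_neg (fun h' => h h'.2), if_pos hp, hL]
      linarith
  · rw [if_neg (fun h' : k.Prime ∧ k % q = v => hp h'.1), if_neg hp]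
    split_ifs <;> linarith

theorem count_ge (q v x : ℕ) (hv : v < q) (hx : 2 ≤ x) :
    ∑ k ∈ Icc 1 x, residueClass ((v : ℕ) : ZMod q) k ≤
      ((PC q v x).card : ℝ) * Real.log x + 2 * √(x : ℝ) * Real.log x := by
  have hx' : (2 : ℝ) ≤ (x : ℝ) := by exact_mod_cast hx
  have g1 : Chebyshev.psi (x : ℝ) - Chebyshev.theta (x : ℝ) ≤ 2 * √(x : ℝ) * Real.log x :=
    Chebyshev.psi_sub_theta_le (by linarith)
  have g2 : ∑ k ∈ Icc 1 x, residueClass ((v : ℕ) : ZMod q) k ≤
      (∑ k ∈ PC q v x, Real.log k) + (Chebyshev.psi (x : ℝ) - Chebyshev.theta (x : ℝ)) := by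
    calc ∑ k ∈ Icc 1 x, residueClass ((v : ℕ) : ZMod q) k
        ≤ ∑ k ∈ Icc 1 x, ((if k.Prime ∧ k % q = v then Real.log k else 0)
          + (ArithmeticFunction.vonMangoldt k - if k.Prime then Real.log k else 0)) :=
          sum_le_sum fun k _ => rc_le q v hv k
      _ = _ := by
          rw [sum_add_distrib, sum_sub_distrib, ← sum_filter, ← sum_filter]
          congr 1
          rw [Chebyshev.psi, Chebyshev.theta, Nat.floor_natCast]
          rfl
  have g3 : (∑ k ∈ PC q v x, Real.log k) ≤ ((PC q v x).card : ℝ) * Real.log x := by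
    rw [← nsmul_eq_mul]
    refine sum_le_card_nsmul _ _ _ fun k hk => ?_
    have hk1 := mem_Icc.1 (mem_filter.1 hk).1
    refine Real.log_le_log (by exact_mod_cast hk1.1) ?_
    exact_mod_cast hk1.2
  linarith

/-- the numerical comparison -/
theorem num (F L : ℝ) (hF : 1 ≤ F) (hL : 96 * F ≤ L) :
    4 * F * L ≤ Real.exp (L ^ (1 / 2 : ℝ)) ∧ 8 * F * L ≤ Real.exp (L / 2) := by
  have hL0 : 0 < L := by linarith
  constructor
  · have h1 := Real.pow_div_factorial_le_exp (L ^ (1 / 2 : ℝ)) (Real.rpow_nonneg hL0.le _) 4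
    have h2 : (L ^ (1 / 2 : ℝ)) ^ 4 = L ^ 2 := by
      rw [← Real.rpow_natCast (L ^ (1 / 2 : ℝ)) 4, ← Real.rpow_mul hL0.le]
      norm_num
    rw [h2] at h1
    have h3 : ((4 : ℕ).factorial : ℝ) = 24 := by norm_num [Nat.factorial]
    rw [h3] at h1
    refine le_trans ?_ h1
    rw [le_div_iff₀ (by norm_num)]
    nlinarith
  · have h1 := Real.pow_div_factorial_le_exp (L / 2) (by linarith) 2
    have h3 : ((2 : ℕ).factorial : ℝ) = 2 := by norm_num [Nat.factorial]
    rw [h3] at h1
    refine le_trans ?_ h1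
    rw [le_div_iff₀ (by norm_num)]
    nlinarith

/-- **Row RES.** -/
theorem rowRes : StRes := by
  intro q hq v
  by_cases hc : Nat.Coprime v.1 q
  · right
    have : NeZero q := ⟨hq.ne'⟩
    have hu : IsUnit ((v.1 : ℕ) : ZMod q) := (ZMod.isUnit_iff_coprime v.1 q).2 hc
    have ht := Vale.Agent.PNT.residueClass_sum_div_tendsto hu
    have hF : (1 : ℝ) ≤ (q.totient : ℝ) := by exact_mod_cast Nat.totient_pos.2 hq
    set F : ℝ := (q.totient : ℝ) with hFdef
    have hF0 : 0 < F := by linarith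
    have hlt : F⁻¹ / 2 < F⁻¹ := by
      have := inv_pos.2 hF0
      linarith
    obtain ⟨X, hX⟩ := eventually_atTop.1 (ht.eventually (lt_mem_nhds hlt))
    refine ⟨1 / 2, by norm_num, max ⌈X⌉₊ (max 2 ⌈Real.exp (96 * F)⌉₊), fun x hx => ?_⟩
    have hx1 : X ≤ (x : ℝ) := (Nat.le_ceil X).trans
      (by exact_mod_cast (le_max_left _ _).trans hx)
    have hx2 : 2 ≤ x := (le_max_left _ _).trans ((le_max_right _ _).trans hx)
    have hx3 : Real.exp (96 * F) ≤ (x : ℝ) := (Nat.le_ceil _).trans
      (by exact_mod_cast (le_max_right _ _).trans ((le_max_right _ _).trans hx))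
    have hx0 : (0 : ℝ) < (x : ℝ) := by
      have : (2 : ℝ) ≤ (x : ℝ) := by exact_mod_cast hx2
      linarith
    have hL : 96 * F ≤ Real.log x := (Real.le_log_iff_exp_le hx0).2 hx3
    have hL0 : 0 < Real.log x := by linarith
    obtain ⟨n1, n2⟩ := num F (Real.log x) hF hL
    have h1 := hX x hx1
    rw [Nat.floor_natCast, lt_div_iff₀ hx0] at h1
    have h2 := count_ge q v.1 x v.2 hx2
    have hsq : √(x : ℝ) = Real.exp (Real.log x / 2) := by
      rw [Real.sqrt_eq_rpow, Real.rpow_def_of_pos hx0]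
      congr 1
      ring
    have hxx : (x : ℝ) = √(x : ℝ) * √(x : ℝ) := (Real.mul_self_sqrt hx0.le).symm
    have h3 : 2 * √(x : ℝ) * Real.log x ≤ x / (4 * F) := by
      rw [le_div_iff₀ (by positivity)]
      have hs : 0 ≤ √(x : ℝ) := Real.sqrt_nonneg _
      calc 2 * √(x : ℝ) * Real.log x * (4 * F) = √(x : ℝ) * (8 * F * Real.log x) := by ring
        _ ≤ √(x : ℝ) * √(x : ℝ) := by
            refine mul_le_mul_of_nonneg_left ?_ hs
            rw [hsq]
            exact n2
        _ = x := hxx.symm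
    have h4 : (x : ℝ) / (4 * F) ≤ ((PC q v.1 x).card : ℝ) * Real.log x := by
      have h5 : F⁻¹ / 2 * x = x / (4 * F) + x / (4 * F) := by
        field_simp
        ring
      linarith
    have h6 : (x : ℝ) * Real.exp (-(Real.log x) ^ (1 / 2 : ℝ)) ≤ ((PC q v.1 x).card : ℝ) := by
      rw [Real.exp_neg, ← div_eq_mul_inv, div_le_iff₀ (Real.exp_pos _)]
      rw [div_le_iff₀ (by positivity)] at h4
      refine h4.trans ?_
      rw [mul_assoc]
      refine mul_le_mul_of_nonneg_left ?_ (Nat.cast_nonneg _)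
      linarith
    refine h6.trans (le_of_eq ?_)
    congr 2
    ext p
    simp only [PC, mem_filter, Fin.ext_iff]
  · left
    refine Set.Finite.subset (Set.finite_singleton (Nat.gcd v.1 q)) ?_
    rintro p ⟨hp, hpv⟩
    have h1 : p % q = v.1 := congrArg Fin.val hpv
    have h2 : Nat.gcd v.1 q ∣ p := by
      have h3 : Nat.gcd v.1 q ∣ p % q := by
        rw [h1]
        exact Nat.gcd_dvd_left _ _
      exact (Nat.dvd_mod_iff (Nat.gcd_dvd_right _ _)).1 h3
    rcases (Nat.dvd_prime hp).1 h2 with h | h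
    · exact absurd h hc
    · exact h.symm

end Vale.Agent.P042.H808
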